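import Vale.Agent.P205.Chart
import Vale.Agent.P205.Assembly.MForm
import Vale.Agent.P205.Iter.Atlas

/-!
Definitions shared by the modules: hypotheses of the three waves, approximate solutions, and the
statements that connect the modules, as propositions.
-/

noncomputable section

open Set Real Metric
open scoped ContDiff Manifold

namespace Vale.Agent.P205

open Wave (V4 ip)

/-- The tensor filled by the three waves. -/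
def trioForm (β : Fin 3 → R2 → ℝ) (z : R2) : Sym2 :=
  β 0 z • sqForm 1 0 + β 1 z • sqForm 1 1 + β 2 z • sqForm 1 (-1)

/-- Hypotheses of the three waves. -/
structure TrioData (C : ℕ → ℝ) (C2 : ℕ → ℕ → ℝ) (K : ℝ) (Ω S : Set R2) (Z : R2 → V4)
    (χ : R2 → ℝ) (β : Fin 3 → R2 → ℝ) : Prop where
  open_ : IsOpen Ω
  compact : IsCompact S
  sub : S ⊆ Ω
  smoothZ : ContDiffOn ℝ ∞ Z Ω
  smoothChi : ContDiff ℝ ∞ χ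
  smoothBeta : ∀ j, ContDiffOn ℝ ∞ (β j) Ω
  supp : ∀ z, z ∉ S → χ z = 0
  chi_le : ∀ z, χ z ≤ C 0
  bdZ : Bd S C K Z
  bdBeta : ∀ j, Bd S C K (β j)
  flat : Flat S C2 K χ
  beta_range : ∀ j, ∀ z ∈ S, β j z ∈ Icc (1 / 16 : ℝ) 16
  imm : ∀ z ∈ Ω, 0 < area Z z
  bend : ∀ z ∈ Ω, 0 < bendSq Z z
  low : ∀ z ∈ S, 1 ≤ C 0 * K * area Z z ∧ 1 ≤ C 0 * K * bendSq Z z

/-- The statement of the module Trio: `χ² (β₀ dx² + β₁ (dx+dy)² + β₂ (dx-dy)²)` is added up to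
`K ^ -N`, `II(v,v)` stays nonzero, and the cost per derivative is `K ^ γ`. -/
def TrioProp : Prop :=
  ∃ γ : ℕ, ∀ (N : ℕ) (C : ℕ → ℝ) (C2 : ℕ → ℕ → ℝ), ∃ (C' : ℕ → ℝ) (K0 : ℝ),
    ∀ K, K0 ≤ K → ∀ (Ω S : Set R2) (Z : R2 → V4) (χ : R2 → ℝ) (β : Fin 3 → R2 → ℝ),
      TrioData C C2 K Ω S Z χ β →
      ∃ X : R2 → V4, ContDiffOn ℝ ∞ X Ω ∧ (∀ z ∈ Ω, z ∉ S → X z = Z z) ∧
        Bd S C' (K ^ γ) X ∧
        (∀ δ, (∀ z, χ z ≤ δ) → ∀ i ≤ 2, ∀ z ∈ S,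
          ‖iteratedFDeriv ℝ i (fun w => X w - Z w) z‖ ≤ C' 0 * K ^ γ * sqrt δ) ∧
        Bd S (fun i => C' i * (K ^ N)⁻¹) (K ^ γ)
          (fun z => met X z - met Z z - χ z ^ 2 • trioForm β z) ∧
        (∀ z ∈ Ω, 0 < bendSq X z) ∧
        ∀ z ∈ S, 1 ≤ C' 0 * K ^ γ * area X z ∧ 1 ≤ C' 0 * K ^ γ * bendSq X z

section manifold

variable {M : Type} [TopologicalSpace M] [ChartedSpace R2 M]

/-- An approximate solution: the deficit is close to `K ^ -m • g`. -/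
structure Start (𝒜 : Iter.Atlas (E := R2) (I := 𝓘(ℝ, R2)) (M := M)) (A : ℝ) (m : ℕ) (C : ℕ → ℝ)
    (K : ℝ) (g : MForm M) (X : M → V4) : Prop where
  symm : ∀ p v w, g p v w = g p w v
  smoothX : ContMDiff 𝓘(ℝ, R2) 𝓘(ℝ, V4) ∞ X
  smoothG : ∀ j, ContDiffOn ℝ ∞ (chartForm g (𝒜.par j)) (ball 0 3)
  ell : ∀ j, ∀ z ∈ closedBall (0 : R2) 2, ∀ a : R2,
    ‖a‖ ^ 2 / A ≤ qf (chartForm g (𝒜.par j) z) a a ∧
      qf (chartForm g (𝒜.par j) z) a a ≤ A * ‖a‖ ^ 2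
  bdG : ∀ j, Bd (closedBall 0 2) C 1 (chartForm g (𝒜.par j))
  bdX : ∀ j, Bd (closedBall 0 2) C K (fun z => X (𝒜.par j z))
  sec : ∀ j, ∀ z ∈ closedBall (0 : R2) 2, 1 ≤ C 0 * K * sffSq (fun z => X (𝒜.par j z)) z
  deficit : ∀ j, Bd (closedBall 0 2) (fun i => C i * (K ^ (m + 1))⁻¹) K
    (fun z => chartForm g (𝒜.par j) z - met (fun z => X (𝒜.par j z)) z
      - (K ^ m)⁻¹ • chartForm g (𝒜.par j) z)

/-- The statement of the module Iteration. -/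
def ExactProp (𝒜 : Iter.Atlas (E := R2) (I := 𝓘(ℝ, R2)) (M := M)) (A : ℝ) : Prop :=
  ∃ m : ℕ, ∀ C : ℕ → ℝ, ∃ K0 : ℝ, ∀ K, K0 ≤ K → ∀ (g : MForm M) (X : M → V4),
      Start 𝒜 A m C K g X →
      ∃ Y : M → V4, ContMDiff 𝓘(ℝ, R2) 𝓘(ℝ, V4) ∞ Y ∧
        (∀ p (v w : TangentSpace 𝓘(ℝ, R2) p),
          ip (mfderiv 𝓘(ℝ, R2) 𝓘(ℝ, V4) Y p v) (mfderiv 𝓘(ℝ, R2) 𝓘(ℝ, V4) Y p w) = g p v w) ∧
        ∀ j, ∀ i ≤ 2, ∀ z ∈ closedBall (0 : R2) 2,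
          ‖iteratedFDeriv ℝ i (fun w => Y (𝒜.par j w) - X (𝒜.par j w)) z‖ ≤ K⁻¹

/-- The conclusion of the module Base. -/
def BaseProp (𝒜 : Iter.Atlas (E := R2) (I := 𝓘(ℝ, R2)) (M := M)) (g : MForm M) (P : Finset M) : Prop :=
  ∃ (Z : M → V4) (χ : M → ℝ) (H : MForm M), ContMDiff 𝓘(ℝ, R2) 𝓘(ℝ, V4) ∞ Z ∧
      ContMDiff 𝓘(ℝ, R2) 𝓘(ℝ) ∞ χ ∧ (∀ p, 0 ≤ χ p) ∧ (∀ p ∈ P, p ∉ tsupport χ) ∧
      (∀ p v w, H p v w = H p w v) ∧ (∀ p ∈ tsupport χ, ∀ v, v ≠ 0 → 0 < H p v v) ∧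
      (∀ j, ∃ C2, Flat (closedBall 0 2) C2 1 fun z => χ (𝒜.par j z)) ∧
      ∀ j, ContDiffOn ℝ ∞ (chartForm H (𝒜.par j)) (ball 0 3) ∧
        (∀ z ∈ ball (0 : R2) 3, chartForm g (𝒜.par j) z = met (fun w => Z (𝒜.par j w)) z
          + χ (𝒜.par j z) ^ 2 • chartForm H (𝒜.par j) z) ∧
        ∀ z ∈ ball (0 : R2) 3, 0 < area (fun w => Z (𝒜.par j w)) z ∧
          ∀ a : R2, a ≠ 0 → sff (fun w => Z (𝒜.par j w)) z a a ≠ 0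

end manifold

/-- The flat torus in the unit sphere. -/
def flatTorus (t : R2) : V4 :=
  (1 / sqrt 2) • ![cos (sqrt 2 * t 0), sin (sqrt 2 * t 0), cos (sqrt 2 * t 1), sin (sqrt 2 * t 1)]

/-- The ring cut-off, zero on the disc of radius `1/4`. -/
def ring (t : R2) : ℝ := expNegInvGlue (‖t‖ ^ 2 - 1 / 16)

/-- The conclusion of the module Patch: a disc of radius `ρ` near the flat torus. -/
def PatchProp (G : R2 → Sym2) (ρ ε : ℝ) : Prop :=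
  ∃ c > 0, c ≤ ε ∧ ∃ r0 > 0, ∀ r : ℝ, 0 < r → r ≤ r0 →
      ∃ W : R2 → V4, ContDiffOn ℝ ∞ W (ball 0 ρ) ∧
        (∀ t ∈ ball (0 : R2) (3 * ρ / 4), met W t = (1 - c * ring (ρ⁻¹ • t)) • G (r • t)) ∧
        ∀ i ≤ 2, ∀ t ∈ ball (0 : R2) (3 * ρ / 4),
          ‖iteratedFDeriv ℝ i (fun w => W w - flatTorus w) t‖ ≤ ε

end Vale.Agent.P205
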