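import Vale.Agent.P205.Wave.Frame

/-!
Induced metric and second fundamental form of a map of a chart into `ℝ⁴`; bounds with a cost per
derivative; flat cut-offs. Symmetric tensors have components `xx, xy, yy`.
-/

noncomputable section

open Set Real
open scoped ContDiff

namespace Vale.Agent.P205

open Wave (V4 ip D gram2 lift2)

/-- The chart plane. -/
abbrev R2 := EuclideanSpace ℝ (Fin 2)
/-- Components `xx, xy, yy` of a symmetric tensor. -/
abbrev Sym2 := Fin 3 → ℝ

/-- The vector with given coordinates. -/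
def pt (a b : ℝ) : R2 := !₂[a, b]

/-- The bilinear form with given components. -/
def qf (T : Sym2) (a b : R2) : ℝ :=
  T 0 * (a 0 * b 0) + T 1 * (a 0 * b 1 + a 1 * b 0) + T 2 * (a 1 * b 1)

/-- The square of a linear form. -/
def sqForm (a b : ℝ) : Sym2 := ![a ^ 2, a * b, b ^ 2]

/-- The induced metric. -/
def met (X : R2 → V4) (z : R2) : Sym2 :=
  ![ip (D (pt 1 0) X z) (D (pt 1 0) X z), ip (D (pt 1 0) X z) (D (pt 0 1) X z),
    ip (D (pt 0 1) X z) (D (pt 0 1) X z)]

/-- The component orthogonal to the plane of `p, q`. -/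
def perp2 (p q w : V4) : V4 := w - lift2 p q (ip p w) (ip q w)

/-- The second fundamental form, a vector orthogonal to the tangent plane. -/
def sff (X : R2 → V4) (z a b : R2) : V4 :=
  perp2 (D (pt 1 0) X z) (D (pt 0 1) X z) (D a (D b X) z)

/-- The squared length of the second fundamental form in the coordinate frame. -/
def sffSq (X : R2 → V4) (z : R2) : ℝ :=
  ip (sff X z (pt 1 0) (pt 1 0)) (sff X z (pt 1 0) (pt 1 0)) +
    2 * ip (sff X z (pt 1 0) (pt 0 1)) (sff X z (pt 1 0) (pt 0 1)) +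
    ip (sff X z (pt 0 1) (pt 0 1)) (sff X z (pt 0 1) (pt 0 1))

/-- The squared length of the second fundamental form on the second coordinate vector. -/
def bendSq (X : R2 → V4) (z : R2) : ℝ :=
  ip (sff X z (pt 0 1) (pt 0 1)) (sff X z (pt 0 1) (pt 0 1))

/-- The determinant of the induced metric. -/
def area (X : R2 → V4) (z : R2) : ℝ := gram2 (D (pt 1 0) X z) (D (pt 0 1) X z)

variable {F : Type} [NormedAddCommGroup F] [NormedSpace ℝ F]

/-- Derivatives of every order at most `C i * K ^ i` on a set. -/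
def Bd (S : Set R2) (C : ℕ → ℝ) (K : ℝ) (f : R2 → F) : Prop :=
  ∀ i, ∀ z ∈ S, ‖iteratedFDeriv ℝ i f z‖ ≤ C i * K ^ i

/-- Flat cut-off: every derivative is bounded by any power less than one of the function. -/
def Flat (S : Set R2) (C : ℕ → ℕ → ℝ) (K : ℝ) (χ : R2 → ℝ) : Prop :=
  ∀ z ∈ S, 0 ≤ χ z ∧ ∀ i d : ℕ,
    ‖iteratedFDeriv ℝ i χ z‖ ^ (d + 1) ≤ (C i d * K ^ i) ^ (d + 1) * χ z ^ d

end Vale.Agent.P205
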