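import Mathlib

/-!
# Isometric immersions of circle-invariant tori into ℝ⁴

For smooth `2π`-periodic `E F G` with `0 < G`, `F ^ 2 < E * G` we build an equivariant map
`X (u, v) = (S/k) (cos A e^{i(kv+a)}, sin A e^{i(kv+b)})`, `S = √G`, inducing
`E du² + 2F du dv + G dv²`.
-/

noncomputable section

open Real MeasureTheory intervalIntegral
open scoped ContDiff RealInnerProductSpace

namespace Vale.Agent.P205

abbrev E4 := EuclideanSpace ℝ (Fin 4)

theorem periodic_lb {f : ℝ → ℝ} (hf : Continuous f) (hp : Function.Periodic f (2 * π))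
    (hpos : ∀ x, 0 < f x) : ∃ m > 0, ∀ x, m ≤ f x := by
  obtain ⟨x₀, -, hx₀⟩ := (isCompact_Icc (a := (0 : ℝ)) (b := 2 * π)).exists_isMinOn
    (Set.nonempty_Icc.2 Real.two_pi_pos.le) hf.continuousOn
  refine ⟨f x₀, hpos _, fun x => ?_⟩
  obtain ⟨y, hy, hxy⟩ := hp.exists_mem_Ico₀ Real.two_pi_pos x
  rw [hxy]
  exact hx₀ ⟨hy.1, hy.2.le⟩

theorem periodic_ub {f : ℝ → ℝ} (hf : Continuous f) (hp : Function.Periodic f (2 * π)) :
    ∃ M, ∀ x, f x ≤ M := by
  obtain ⟨x₀, -, hx₀⟩ := (isCompact_Icc (a := (0 : ℝ)) (b := 2 * π)).exists_isMaxOn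
    (Set.nonempty_Icc.2 Real.two_pi_pos.le) hf.continuousOn
  refine ⟨f x₀, fun x => ?_⟩
  obtain ⟨y, hy, hxy⟩ := hp.exists_mem_Ico₀ Real.two_pi_pos x
  rw [hxy]
  exact hx₀ ⟨hy.1, hy.2.le⟩

theorem periodic_deriv {f : ℝ → ℝ} {c : ℝ} (hp : Function.Periodic f c) :
    Function.Periodic (deriv f) c := by
  intro x
  have h : (fun y => f (y + c)) = f := funext hp
  rw [← deriv_comp_add_const, h]

theorem smooth_primitive {f : ℝ → ℝ} (hf : ContDiff ℝ ∞ f) :
    ContDiff ℝ ∞ (fun u => ∫ t in (0 : ℝ)..u, f t) := by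
  have hd : ∀ u, HasDerivAt (fun u => ∫ t in (0 : ℝ)..u, f t) (f u) u := fun u =>
    intervalIntegral.integral_hasDerivAt_right (hf.continuous.intervalIntegrable _ _)
      (hf.continuous.stronglyMeasurableAtFilter _ _) hf.continuous.continuousAt
  rw [contDiff_infty_iff_deriv]
  refine ⟨fun u => (hd u).differentiableAt, ?_⟩
  rw [funext fun u => (hd u).deriv]
  exact hf

theorem primitive_hasDeriv {f : ℝ → ℝ} (hf : Continuous f) (u : ℝ) :
    HasDerivAt (fun u => ∫ t in (0 : ℝ)..u, f t) (f u) u :=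
  intervalIntegral.integral_hasDerivAt_right (hf.intervalIntegrable _ _)
    (hf.stronglyMeasurableAtFilter _ _) hf.continuousAt

theorem primitive_shift {f : ℝ → ℝ} (hf : Continuous f) (hp : Function.Periodic f (2 * π))
    (u : ℝ) :
    (∫ t in (0 : ℝ)..(u + 2 * π), f t)
      = (∫ t in (0 : ℝ)..u, f t) + ∫ t in (0 : ℝ)..(2 * π), f t := by
  rw [← intervalIntegral.integral_add_adjacent_intervals
    (hf.intervalIntegrable 0 u) (hf.intervalIntegrable u (u + 2 * π)),
    hp.intervalIntegral_add_eq u 0, zero_add]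

/-- A smooth inverse of the primitive of a smooth positive periodic speed. -/
theorem arclength_inverse {q : ℝ → ℝ} (hq : ContDiff ℝ ∞ q)
    (hp : Function.Periodic q (2 * π)) (hpos : ∀ x, 0 < q x) :
    ∃ σ : ℝ → ℝ, ContDiff ℝ ∞ σ ∧ (∀ y, HasDerivAt σ (q (σ y))⁻¹ y) ∧
      ∀ y, σ (y + ∫ t in (0 : ℝ)..(2 * π), q t) = σ y + 2 * π := by
  obtain ⟨m, hm, hmq⟩ := periodic_lb hq.continuous hp hpos
  set ℓ : ℝ → ℝ := fun s => ∫ t in (0 : ℝ)..s, q t with hℓ
  have hd : ∀ s, HasDerivAt ℓ (q s) s := primitive_hasDeriv hq.continuous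
  have hmono : StrictMono ℓ := strictMono_of_hasDerivAt_pos hd hpos
  have hcont : Continuous ℓ := continuous_iff_continuousAt.2 fun s => (hd s).continuousAt
  have hg : Monotone fun s => ℓ s - m * s := by
    apply monotone_of_hasDerivAt_nonneg (f' := fun s => q s - m)
    · intro s
      simpa using (hd s).fun_sub ((hasDerivAt_id' s).const_mul m)
    · intro s; exact sub_nonneg.2 (hmq s)
  have h0 : ℓ 0 = 0 := by simp [hℓ]
  have hsurj : Function.Surjective ℓ := by
    intro y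
    rcases le_total 0 y with h | h
    · have h1 : y ≤ ℓ (y / m) := by
        have := hg (div_nonneg h hm.le)
        simp only [h0, mul_zero, sub_zero] at this
        rw [mul_div_cancel₀ _ hm.ne'] at this
        linarith
      obtain ⟨s, -, hs⟩ := intermediate_value_Icc (div_nonneg h hm.le) hcont.continuousOn
        ⟨by rw [h0]; exact h, h1⟩
      exact ⟨s, hs⟩
    · have hle : y / m ≤ 0 := div_nonpos_of_nonpos_of_nonneg h hm.le
      have h1 : ℓ (y / m) ≤ y := by
        have := hg hle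
        simp only [h0, mul_zero, sub_zero] at this
        rw [mul_div_cancel₀ _ hm.ne'] at this
        linarith
      obtain ⟨s, -, hs⟩ := intermediate_value_Icc hle hcont.continuousOn
        ⟨h1, by rw [h0]; exact h⟩
      exact ⟨s, hs⟩
  set e : ℝ ≃o ℝ := hmono.orderIsoOfSurjective ℓ hsurj with he
  have hinv : ∀ y, ℓ (e.symm y) = y := fun y => by
    exact e.apply_symm_apply y
  have hder : ∀ y, HasDerivAt (fun y => e.symm y) (q (e.symm y))⁻¹ y := fun y =>
    HasDerivAt.of_local_left_inverse e.symm.continuous.continuousAt (hd _) (hpos _).ne'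
      (Filter.Eventually.of_forall hinv)
  refine ⟨fun y => e.symm y, ?_, hder, fun y => ?_⟩
  · rw [contDiff_infty]
    intro n
    induction n with
    | zero => exact contDiff_zero.2 e.symm.continuous
    | succ n ih =>
      rw [Nat.cast_add, Nat.cast_one, contDiff_succ_iff_deriv]
      refine ⟨fun y => (hder y).differentiableAt, by simp, ?_⟩
      rw [funext fun y => (hder y).deriv]
      exact ((hq.of_le (mod_cast le_top)).comp ih).inv fun y => (hpos _).ne'
  · apply hmono.injective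
    rw [hinv]
    simp only [hℓ]
    rw [primitive_shift hq.continuous hp]
    exact congrArg₂ _ (hinv y).symm rfl

/-- The latitude wiggle with prescribed mean of `cos 2α` and prescribed projected length. -/
theorem exists_curve {d L : ℝ} (hd0 : 0 ≤ d) (hd1 : d < 1) (hL : 2 * π ≤ L) :
    ∃ α : ℝ → ℝ, ContDiff ℝ ∞ α ∧ Function.Periodic α (2 * π) ∧
      (∫ s in (0 : ℝ)..(2 * π), cos (2 * α s)) = 2 * π * d ∧
      (∀ s, 0 < deriv α s ^ 2 + sin (2 * α s) ^ 2) ∧
      (∫ s in (0 : ℝ)..(2 * π), √(deriv α s ^ 2 + sin (2 * α s) ^ 2)) = L := by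
  set β : ℝ := arccos (2 * d / (1 + d)) / 2 with hβ
  have hd' : 0 < 1 + d := by linarith
  have hq1 : 2 * d / (1 + d) < 1 := by rw [div_lt_one hd']; linarith
  have hq0 : 0 ≤ 2 * d / (1 + d) := by positivity
  have hβpos : 0 < β := by rw [hβ]; have := arccos_pos.2 hq1; positivity
  have hβle : β ≤ π / 4 := by
    rw [hβ]; have := arccos_le_pi_div_two.2 hq0; linarith
  set ε₁ : ℝ := min (√((1 - d) / 4)) (β / 2) with hε₁
  have hε₁pos : 0 < ε₁ := lt_min (sqrt_pos.2 (by linarith)) (by linarith)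
  obtain ⟨M, hM⟩ : ∃ M : ℕ, L / (ε₁ * π) ≤ M := exists_nat_ge _
  have hLpos : 0 < L := lt_of_lt_of_le Real.two_pi_pos hL
  have hMpos : (0 : ℝ) < M := lt_of_lt_of_le (by positivity) hM
  set J : ℝ → ℝ := fun ε => (∫ s in (0 : ℝ)..(2 * π), cos (2 * ε * sin (M * s))) / (2 * π) with hJ
  have hJcont : Continuous J := by
    rw [hJ]
    exact (intervalIntegral.continuous_parametric_intervalIntegral_of_continuous'
      (by fun_prop) _ _).div_const _
  have hJlb : ∀ ε ∈ Set.Icc 0 ε₁, (1 + d) / 2 ≤ J ε := by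
    intro ε hε
    have he2 : ε ^ 2 ≤ (1 - d) / 4 := by
      have h1 : ε ≤ √((1 - d) / 4) := hε.2.trans (min_le_left _ _)
      calc ε ^ 2 ≤ √((1 - d) / 4) ^ 2 := pow_le_pow_left₀ hε.1 h1 2
        _ = _ := sq_sqrt (by linarith)
    rw [hJ, le_div_iff₀ Real.two_pi_pos]
    calc (1 + d) / 2 * (2 * π) = ∫ s in (0 : ℝ)..(2 * π), (1 + d) / 2 := by simp; ring
      _ ≤ _ := by
        refine intervalIntegral.integral_mono_on Real.two_pi_pos.le (by simp)
          ((by fun_prop : Continuous _).intervalIntegrable _ _) fun s _ => ?_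
        have h2 := one_sub_sq_div_two_le_cos (x := 2 * ε * sin (M * s))
        have h3 : (2 * ε * sin (M * s)) ^ 2 ≤ 4 * ε ^ 2 := by
          have := sin_sq_le_one (M * s)
          nlinarith [sq_nonneg ε]
        linarith
  set α₀ : ℝ → ℝ := fun ε => arccos (d / J ε) / 2 with hα₀
  have hα₀cont : ContinuousOn α₀ (Set.Icc 0 ε₁) := by
    refine ContinuousOn.div_const (continuous_arccos.comp_continuousOn ?_) _
    exact continuousOn_const.div hJcont.continuousOn fun ε hε => by
      linarith [hJlb ε hε]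
  have hfrac : ∀ ε ∈ Set.Icc 0 ε₁, 0 ≤ d / J ε ∧ d / J ε ≤ 2 * d / (1 + d) := by
    intro ε hε
    have hj := hJlb ε hε
    refine ⟨div_nonneg hd0 (by linarith), ?_⟩
    rw [div_le_div_iff₀ (by linarith) hd']
    nlinarith
  have hrange : ∀ ε ∈ Set.Icc 0 ε₁, β ≤ α₀ ε ∧ α₀ ε ≤ π / 4 := by
    intro ε hε
    obtain ⟨h1, h2⟩ := hfrac ε hε
    constructor
    · have := arccos_le_arccos h2
      simp only [hα₀, hβ]; linarith
    · have := arccos_le_pi_div_two.2 h1
      simp only [hα₀]; linarith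
  -- length as a function of ε
  let sp : ℝ → ℝ → ℝ := fun ε s =>
    √((ε * M * cos (M * s)) ^ 2 + sin (2 * (α₀ ε + ε * sin (M * s))) ^ 2)
  set Len : ℝ → ℝ := fun ε => ∫ s in (0 : ℝ)..(2 * π), sp ε s with hLen
  have hLcont : ContinuousOn Len (Set.Icc 0 ε₁) := by
    have hclamp : Continuous fun ε => α₀ (Set.projIcc 0 ε₁ hε₁pos.le ε) :=
      hα₀cont.comp_continuous (continuous_subtype_val.comp continuous_projIcc) fun ε => Subtype.coe_prop _
    have key : ∀ g : ℝ → ℝ, Continuous g → Continuous fun ε => ∫ s in (0 : ℝ)..(2 * π),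
        √((ε * M * cos (M * s)) ^ 2 + sin (2 * (g ε + ε * sin (M * s))) ^ 2) := fun g hg =>
      intervalIntegral.continuous_parametric_intervalIntegral_of_continuous' (by fun_prop) _ _
    have hc : Continuous fun ε => ∫ s in (0 : ℝ)..(2 * π),
        √((ε * M * cos (M * s)) ^ 2
          + sin (2 * (α₀ (Set.projIcc 0 ε₁ hε₁pos.le ε) + ε * sin (M * s))) ^ 2) :=
      key _ hclamp
    refine hc.continuousOn.congr fun ε hε => ?_
    simp only [hLen, sp, Set.projIcc_of_mem _ hε]
  have hlo : Len 0 ≤ L := by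
    refine le_trans ?_ hL
    calc Len 0 ≤ ∫ s in (0 : ℝ)..(2 * π), (1 : ℝ) := by
          refine intervalIntegral.integral_mono_on Real.two_pi_pos.le
            ((by fun_prop : Continuous (sp 0)).intervalIntegrable _ _) (by simp) fun s _ => ?_
          simp only [sp, zero_mul, add_zero, ne_eq, OfNat.ofNat_ne_zero, not_false_eq_true,
            zero_pow, zero_add]
          exact sqrt_le_one.2 (sin_sq_le_one _)
      _ = 2 * π := by simp
  have hhi : L ≤ Len ε₁ := by
    have hcos : (∫ s in (0 : ℝ)..(2 * π), ε₁ * M * cos (M * s) ^ 2) = ε₁ * M * π := by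
      rw [intervalIntegral.integral_const_mul]
      congr 1
      rw [intervalIntegral.integral_comp_mul_left (fun x => cos x ^ 2) hMpos.ne', integral_cos_sq,
        show (M : ℝ) * (2 * π) = M * (2 * π) - 0 by ring]
      simp only [mul_zero, sub_zero, cos_zero, sin_zero, smul_eq_mul]
      rw [show (M : ℝ) * (2 * π) = ((2 * M : ℕ) : ℝ) * π by push_cast; ring, sin_nat_mul_pi]
      push_cast; field_simp; ring
    calc L ≤ ε₁ * M * π := by
          rw [div_le_iff₀ (by positivity)] at hM; linarith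
      _ = _ := hcos.symm
      _ ≤ Len ε₁ := by
        refine intervalIntegral.integral_mono_on Real.two_pi_pos.le
          ((by fun_prop : Continuous _).intervalIntegrable _ _)
          ((by fun_prop : Continuous (sp ε₁)).intervalIntegrable _ _) fun s _ => ?_
        calc ε₁ * M * cos (M * s) ^ 2 ≤ |ε₁ * M * cos (M * s)| := by
              rw [abs_mul, abs_of_pos (by positivity : 0 < ε₁ * M)]
              refine mul_le_mul_of_nonneg_left ?_ (by positivity)
              rw [← sq_abs]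
              exact pow_le_of_le_one (abs_nonneg _) (abs_cos_le_one _) two_ne_zero
          _ = √((ε₁ * M * cos (M * s)) ^ 2) := (sqrt_sq_eq_abs _).symm
          _ ≤ _ := sqrt_le_sqrt (le_add_of_nonneg_right (sq_nonneg _))
  obtain ⟨ε, hε, hεL⟩ := intermediate_value_Icc hε₁pos.le hLcont ⟨hlo, hhi⟩
  refine ⟨fun s => α₀ ε + ε * sin (M * s), by fun_prop, ?_, ?_, ?_, ?_⟩
  · intro s
    simp only
    rw [show (M : ℝ) * (s + 2 * π) = M * s + M * (2 * π) by ring, sin_add_nat_mul_two_pi]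
  · have hodd : (∫ s in (0 : ℝ)..(2 * π), sin (2 * ε * sin (M * s))) = 0 := by
      have h := intervalIntegral.integral_comp_sub_left (a := 0) (b := 2 * π)
        (fun s => sin (2 * ε * sin (M * s))) (2 * π)
      simp only [sub_self, sub_zero] at h
      have heq : ∀ s : ℝ, sin (2 * ε * sin (M * (2 * π - s))) = - sin (2 * ε * sin (M * s)) := by
        intro s
        rw [show (M : ℝ) * (2 * π - s) = M * (2 * π) - M * s by ring, sin_nat_mul_two_pi_sub,
          mul_neg, sin_neg]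
      simp only [heq, intervalIntegral.integral_neg] at h
      linarith
    have hsplit : ∀ s : ℝ, cos (2 * (α₀ ε + ε * sin (M * s)))
        = cos (2 * α₀ ε) * cos (2 * ε * sin (M * s))
          - sin (2 * α₀ ε) * sin (2 * ε * sin (M * s)) := by
      intro s; rw [← cos_add]; congr 1; ring
    simp only [hsplit]
    rw [intervalIntegral.integral_sub ((by fun_prop : Continuous _).intervalIntegrable _ _)
      ((by fun_prop : Continuous _).intervalIntegrable _ _), intervalIntegral.integral_const_mul,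
      intervalIntegral.integral_const_mul, hodd, mul_zero, sub_zero]
    obtain ⟨h1, h2⟩ := hfrac ε hε
    have hc : cos (2 * α₀ ε) = d / J ε := by
      simp only [hα₀]
      rw [show 2 * (arccos (d / J ε) / 2) = arccos (d / J ε) by ring]
      exact cos_arccos (by linarith) (by linarith)
    have hj := hJlb ε hε
    rw [hc, show (∫ s in (0 : ℝ)..(2 * π), cos (2 * ε * sin (M * s))) = J ε * (2 * π) by
      simp only [hJ]; field_simp]
    have hJne : J ε ≠ 0 := by linarith
    field_simp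
  · intro s
    obtain ⟨h1, h2⟩ := hrange ε hε
    have he : ε ≤ β / 2 := hε.2.trans (min_le_right _ _)
    have hs1 := neg_one_le_sin (M * s)
    have hs2 := sin_le_one (M * s)
    have : 0 < sin (2 * (α₀ ε + ε * sin (M * s))) :=
      sin_pos_of_pos_of_lt_pi (by nlinarith [hε.1]) (by nlinarith [hε.1, Real.pi_pos])
    positivity
  · rw [← hεL]
    apply intervalIntegral.integral_congr
    intro s _
    simp only [sp]
    have hd : HasDerivAt (fun s => α₀ ε + ε * sin (M * s)) (ε * M * cos (M * s)) s := by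
      have := ((((hasDerivAt_id' s).const_mul (M : ℝ)).sin).const_mul ε).const_add (α₀ ε)
      exact this.congr_deriv (by ring)
    rw [hd.deriv]

/-- Every circle-invariant metric on the torus is induced by a smooth map into ℝ⁴. -/
theorem exists_immersion {E F G : ℝ → ℝ} (hE : ContDiff ℝ ∞ E) (hF : ContDiff ℝ ∞ F)
    (hG : ContDiff ℝ ∞ G) (pE : Function.Periodic E (2 * π)) (pF : Function.Periodic F (2 * π))
    (pG : Function.Periodic G (2 * π)) (hGpos : ∀ u, 0 < G u) (hdet : ∀ u, F u ^ 2 < E u * G u) :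
    ∃ X : ℝ × ℝ → E4, ContDiff ℝ ∞ X ∧
      (∀ u v, X (u + 2 * π, v) = X (u, v)) ∧ (∀ u v, X (u, v + 2 * π) = X (u, v)) ∧
      ∀ p a b : ℝ × ℝ, ⟪fderiv ℝ X p a, fderiv ℝ X p b⟫ =
        E p.1 * (a.1 * b.1) + F p.1 * (a.1 * b.2 + a.2 * b.1) + G p.1 * (a.2 * b.2) := by
  set S : ℝ → ℝ := fun u => √(G u) with hS
  have hSd : ContDiff ℝ ∞ S := hG.sqrt fun u => (hGpos u).ne'
  have hSpos : ∀ u, 0 < S u := fun u => sqrt_pos.2 (hGpos u)
  have hS2 : ∀ u, S u ^ 2 = G u := fun u => sq_sqrt (hGpos u).le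
  have pS : Function.Periodic S (2 * π) := fun u => by simp [hS, pG u]
  have hS' : ContDiff ℝ ∞ (deriv S) := (contDiff_infty_iff_deriv.1 hSd).2
  set R₀ : ℝ → ℝ := fun u => E u - F u ^ 2 / G u with hR₀
  have hR₀d : ContDiff ℝ ∞ R₀ := hE.sub ((hF.pow 2).div hG fun u => (hGpos u).ne')
  have hR₀pos : ∀ u, 0 < R₀ u := fun u => by
    have := hdet u
    simp only [hR₀, sub_pos, div_lt_iff₀ (hGpos u)]; linarith
  have pR₀ : Function.Periodic R₀ (2 * π) := fun u => by simp [hR₀, pE u, pF u, pG u]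
  obtain ⟨m₀, hm₀, hm₀R⟩ := periodic_lb hR₀d.continuous pR₀ hR₀pos
  obtain ⟨B, hB⟩ := periodic_ub (hS'.continuous.pow 2)
    (fun u => by simp [periodic_deriv pS u])
  obtain ⟨G₁, hG₁⟩ := periodic_ub hG.continuous pG
  have hG₁pos : 0 < G₁ := lt_of_lt_of_le (hGpos 0) (hG₁ 0)
  obtain ⟨k, hk⟩ : ∃ k : ℕ, max 1 (max (2 * B / m₀) (√(2 * G₁ / m₀))) ≤ k := exists_nat_ge _
  have hk1 : (1 : ℝ) ≤ k := le_trans (le_max_left _ _) hk
  have hkpos : (0 : ℝ) < k := by linarith
  have hkB : 2 * B / m₀ ≤ k := le_trans (le_trans (le_max_left _ _) (le_max_right _ _)) hk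
  have hkG : √(2 * G₁ / m₀) ≤ k := le_trans (le_trans (le_max_right _ _) (le_max_right _ _)) hk
  set R : ℝ → ℝ := fun u => R₀ u - (deriv S u / k) ^ 2 with hR
  have hRlb : ∀ u, m₀ / 2 ≤ R u := by
    intro u
    have h1 : (deriv S u / k) ^ 2 ≤ m₀ / 2 := by
      rw [div_pow, div_le_iff₀ (by positivity)]
      rw [div_le_iff₀ hm₀] at hkB
      have h2 : (k : ℝ) ≤ k ^ 2 := le_self_pow₀ hk1 two_ne_zero
      have h3 : deriv S u ^ 2 ≤ B := hB u
      nlinarith [h3, mul_le_mul_of_nonneg_left h2 hm₀.le]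
    have := hm₀R u
    simp only [hR]; linarith
  have hRd : ContDiff ℝ ∞ R := hR₀d.sub ((hS'.div_const _).pow 2)
  set w : ℝ → ℝ := fun u => k * √(R u) / S u with hw
  have hRne : ∀ u, R u ≠ 0 := fun u => by linarith [hRlb u]
  have hwd : ContDiff ℝ ∞ w :=
    (contDiff_const.mul (hRd.sqrt hRne)).div hSd fun u => (hSpos u).ne'
  have pR : Function.Periodic R (2 * π) := fun u => by
    simp [hR, pR₀ u, periodic_deriv pS u]
  have pw : Function.Periodic w (2 * π) := fun u => by simp [hw, pR u, pS u]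
  have hw2 : ∀ u, S u ^ 2 * w u ^ 2 = k ^ 2 * R u := by
    intro u
    simp only [hw, div_pow, mul_pow, sq_sqrt (show 0 ≤ R u by linarith [hRlb u])]
    field_simp [(hSpos u).ne']
  have hw1 : ∀ u, 1 ≤ w u := by
    intro u
    have hk2 : 2 * G₁ / m₀ ≤ (k : ℝ) ^ 2 := (sqrt_le_left hkpos.le).1 hkG
    rw [div_le_iff₀ hm₀] at hk2
    have h1 : S u ≤ k * √(R u) := by
      simp only [hS]
      rw [sqrt_le_left (by positivity), mul_pow, sq_sqrt (show 0 ≤ R u by linarith [hRlb u])]
      nlinarith [hG₁ u, hRlb u, sq_nonneg (k : ℝ)]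
    simp only [hw, le_div_iff₀ (hSpos u), one_mul]
    exact h1
  set L : ℝ := ∫ t in (0 : ℝ)..(2 * π), w t with hL
  have hL2 : 2 * π ≤ L := by
    calc 2 * π = ∫ _ in (0 : ℝ)..(2 * π), (1 : ℝ) := by simp
      _ ≤ _ := intervalIntegral.integral_mono_on Real.two_pi_pos.le (by simp)
        (hwd.continuous.intervalIntegrable _ _) fun u _ => hw1 u
  set μ : ℝ → ℝ := fun u => k * F u / G u with hμ
  have hμd : ContDiff ℝ ∞ μ := (contDiff_const.mul hF).div hG fun u => (hGpos u).ne'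
  have pμ : Function.Periodic μ (2 * π) := fun u => by simp [hμ, pF u, pG u]
  set C : ℝ := ∫ t in (0 : ℝ)..(2 * π), μ t with hC
  set x : ℝ := C / π + 2 with hx
  set n : ℤ := ⌊x / 2⌋ with hn
  set d : ℝ := x / 2 - n with hd
  have hd0 : 0 ≤ d := by simp only [hd, hn]; linarith [Int.floor_le (x / 2)]
  have hd1 : d < 1 := by simp only [hd, hn]; linarith [Int.lt_floor_add_one (x / 2)]
  obtain ⟨α, hαd, pα, hαint, hαpos, hαlen⟩ := exists_curve hd0 hd1 hL2
  have hα' : ContDiff ℝ ∞ (deriv α) := (contDiff_infty_iff_deriv.1 hαd).2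
  set q : ℝ → ℝ := fun s => √(deriv α s ^ 2 + sin (2 * α s) ^ 2) with hq
  have hqd : ContDiff ℝ ∞ q :=
    ((hα'.pow 2).add ((contDiff_const.mul hαd).sin.pow 2)).sqrt fun s => (hαpos s).ne'
  have pq : Function.Periodic q (2 * π) := fun s => by simp [hq, periodic_deriv pα s, pα s]
  have hqpos : ∀ s, 0 < q s := fun s => sqrt_pos.2 (hαpos s)
  obtain ⟨σ, hσd, hσ', hσp⟩ := arclength_inverse hqd pq hqpos
  set W : ℝ → ℝ := fun u => ∫ t in (0 : ℝ)..u, w t with hW
  set τ : ℝ → ℝ := fun u => σ (W u) with hτ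
  have hWd : ContDiff ℝ ∞ W := smooth_primitive hwd
  have hτd : ContDiff ℝ ∞ τ := hσd.comp hWd
  have hτ' : ∀ u, HasDerivAt τ (w u / q (τ u)) u := fun u => by
    have := (hσ' (W u)).comp u (primitive_hasDeriv hwd.continuous u)
    exact this.congr_deriv (by simp only [hτ]; ring)
  have hτp : ∀ u, τ (u + 2 * π) = τ u + 2 * π := by
    intro u
    have : W (u + 2 * π) = W u + ∫ t in (0 : ℝ)..(2 * π), q t := by
      simp only [hW]
      rw [primitive_shift hwd.continuous pw u, show (∫ t in (0 : ℝ)..(2 * π), q t) = L from hαlen]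
    simp only [hτ, this, hσp]
  set A : ℝ → ℝ := fun u => α (τ u) with hA
  have hAd : ContDiff ℝ ∞ A := hαd.comp hτd
  have hA' : ∀ u, HasDerivAt A (deriv α (τ u) * (w u / q (τ u))) u := fun u =>
    ((hαd.differentiable (by simp) (τ u)).hasDerivAt).comp u (hτ' u)
  set H : ℝ → ℝ := fun s => ∫ t in (0 : ℝ)..s, 2 * sin (α t) ^ 2 with hH
  have hHint : Continuous fun t => 2 * sin (α t) ^ 2 := by
    have := hαd.continuous; fun_prop
  have pH : Function.Periodic (fun t => 2 * sin (α t) ^ 2) (2 * π) := fun t => by simp [pα t]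
  have hHd : ContDiff ℝ ∞ H := smooth_primitive (contDiff_const.mul (hαd.sin.pow 2))
  set P : ℝ → ℝ := fun u => ∫ t in (0 : ℝ)..u, μ t with hP
  set a : ℝ → ℝ := fun u => P u + H (τ u) with ha
  set b : ℝ → ℝ := fun u => a u - 2 * τ u with hb
  have hPd : ContDiff ℝ ∞ P := smooth_primitive hμd
  have had : ContDiff ℝ ∞ a := hPd.add (hHd.comp hτd)
  have hbd : ContDiff ℝ ∞ b := had.sub (contDiff_const.mul hτd)
  have ha' : ∀ u, HasDerivAt a (μ u + 2 * sin (A u) ^ 2 * (w u / q (τ u))) u := fun u =>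
    (primitive_hasDeriv hμd.continuous u).add
      ((primitive_hasDeriv hHint (τ u)).comp u (hτ' u))
  have hb' : ∀ u, HasDerivAt b (μ u - 2 * cos (A u) ^ 2 * (w u / q (τ u))) u := fun u => by
    refine ((ha' u).sub ((hτ' u).const_mul 2)).congr_deriv ?_
    linear_combination 2 * (w u / q (τ u)) * sin_sq_add_cos_sq (A u)
  have hHper : H (2 * π) = 2 * π * (1 - d) := by
    have hsq : ∀ t, 2 * sin (α t) ^ 2 = 1 - cos (2 * α t) := fun t => by
      rw [cos_two_mul']; linear_combination sin_sq_add_cos_sq (α t)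
    have := hαd.continuous
    simp only [hH, hsq]
    rw [intervalIntegral.integral_sub (by simp)
      ((by fun_prop : Continuous _).intervalIntegrable _ _), hαint]
    simp; ring
  have hap : ∀ u, a (u + 2 * π) = a u + n * (2 * π) := by
    intro u
    simp only [ha, hP, hτp]
    rw [primitive_shift hμd.continuous pμ u]
    simp only [hH] at hHper ⊢
    rw [primitive_shift hHint pH (τ u), hHper, ← hC]
    simp only [hd, hx]
    field_simp
    ring
  have hbp : ∀ u, b (u + 2 * π) = b u + (n - 2 : ℤ) * (2 * π) := by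
    intro u; simp only [hb, hap, hτp]; push_cast; ring
  -- the map
  set r : ℝ → ℝ := fun u => S u / k * cos (A u) with hr
  set t : ℝ → ℝ := fun u => S u / k * sin (A u) with ht
  have hrd : ContDiff ℝ ∞ r := (hSd.div_const _).mul hAd.cos
  have htd : ContDiff ℝ ∞ t := (hSd.div_const _).mul hAd.sin
  set X : ℝ × ℝ → E4 := fun p => WithLp.toLp 2
    ![r p.1 * cos (k * p.2 + a p.1), r p.1 * sin (k * p.2 + a p.1),
      t p.1 * cos (k * p.2 + b p.1), t p.1 * sin (k * p.2 + b p.1)] with hX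
  have hsm : ∀ f : ℝ → ℝ, ContDiff ℝ ∞ f → ContDiff ℝ ∞ fun p : ℝ × ℝ => f p.1 :=
    fun f hf => hf.comp contDiff_fst
  have harg : ∀ f : ℝ → ℝ, ContDiff ℝ ∞ f →
      ContDiff ℝ ∞ fun p : ℝ × ℝ => (k : ℝ) * p.2 + f p.1 :=
    fun f hf => (contDiff_const.mul contDiff_snd).add (hsm f hf)
  have hXd : ContDiff ℝ ∞ X := by
    rw [contDiff_euclidean]
    intro i
    fin_cases i
    · simpa [hX] using (hsm r hrd).mul (harg a had).cos
    · simpa [hX] using (hsm r hrd).mul (harg a had).sin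
    · simpa [hX] using (hsm t htd).mul (harg b hbd).cos
    · simpa [hX] using (hsm t htd).mul (harg b hbd).sin
  refine ⟨X, hXd, ?_, ?_, ?_⟩
  · intro u v
    have h1 : A (u + 2 * π) = A u := by simp only [hA, hτp, pα (τ u)]
    simp only [hX, hr, ht, pS u, h1, hap, hbp, ← add_assoc, cos_add_int_mul_two_pi,
      sin_add_int_mul_two_pi]
  · intro u v
    have h1 : ∀ θ : ℝ, (k : ℝ) * (v + 2 * π) + θ = k * v + θ + (k : ℤ) * (2 * π) := fun θ => by
      push_cast; ring
    simp only [hX, h1, cos_add_int_mul_two_pi, sin_add_int_mul_two_pi]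
  intro p v₁ v₂
  obtain ⟨u, v⟩ := p
  set cA := cos (A u) with hcA
  set sA := sin (A u) with hsA
  set A₁ := deriv α (τ u) * (w u / q (τ u)) with hA₁
  set a₁ := μ u + 2 * sA ^ 2 * (w u / q (τ u)) with ha₁
  set b₁ := μ u - 2 * cA ^ 2 * (w u / q (τ u)) with hb₁
  have hr' : HasDerivAt r (deriv S u / k * cA + S u / k * (-sA * A₁)) u := by
    exact ((((hSd.differentiable (by simp) u).hasDerivAt).div_const _).mul (hA' u).cos)
  have ht' : HasDerivAt t (deriv S u / k * sA + S u / k * (cA * A₁)) u := by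
    exact ((((hSd.differentiable (by simp) u).hasDerivAt).div_const _).mul (hA' u).sin)
  set r₁ := deriv S u / k * cA + S u / k * (-sA * A₁) with hr₁
  set t₁ := deriv S u / k * sA + S u / k * (cA * A₁) with ht₁
  set θ := (k : ℝ) * v + a u with hθ
  set η := (k : ℝ) * v + b u with hη
  have hu : HasDerivAt (fun s => X (s, v)) (WithLp.toLp 2
      ![r₁ * cos θ + r u * (-sin θ * a₁), r₁ * sin θ + r u * (cos θ * a₁),
        t₁ * cos η + t u * (-sin η * b₁), t₁ * sin η + t u * (cos η * b₁)]) u := by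
    refine (PiLp.continuousLinearEquiv 2 ℝ (fun _ : Fin 4 => ℝ)).symm.hasFDerivAt.comp_hasDerivAt _
      (hasDerivAt_pi.2 fun i => ?_)
    fin_cases i
    · simpa using hr'.fun_mul ((ha' u).const_add _).cos
    · simpa using hr'.fun_mul ((ha' u).const_add _).sin
    · simpa using ht'.fun_mul ((hb' u).const_add _).cos
    · simpa using ht'.fun_mul ((hb' u).const_add _).sin
  have hkv : ∀ c : ℝ, HasDerivAt (fun s => (k : ℝ) * s + c) k v := fun c => by
    simpa using ((hasDerivAt_id' v).const_mul (k : ℝ)).add_const c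
  have hv : HasDerivAt (fun s => X (u, s)) (WithLp.toLp 2
      ![r u * (-sin θ * k), r u * (cos θ * k), t u * (-sin η * k), t u * (cos η * k)]) v := by
    refine (PiLp.continuousLinearEquiv 2 ℝ (fun _ : Fin 4 => ℝ)).symm.hasFDerivAt.comp_hasDerivAt _
      (hasDerivAt_pi.2 fun i => ?_)
    fin_cases i
    · simpa using (hkv (a u)).cos.const_mul (r u)
    · simpa using (hkv (a u)).sin.const_mul (r u)
    · simpa using (hkv (b u)).cos.const_mul (t u)
    · simpa using (hkv (b u)).sin.const_mul (t u)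
  have hfd : ∀ c : ℝ × ℝ, fderiv ℝ X (u, v) c
      = c.1 • deriv (fun s => X (s, v)) u + c.2 • deriv (fun s => X (u, s)) v := by
    intro c
    have hF' := (hXd.differentiable (by simp) (u, v)).hasFDerivAt
    have h1 := hF'.comp_hasDerivAt u ((hasDerivAt_id' u).prodMk (hasDerivAt_const u v))
    have h2 := hF'.comp_hasDerivAt v ((hasDerivAt_const v u).prodMk (hasDerivAt_id' v))
    rw [show (fun s => X (s, v)) = X ∘ fun s => (s, v) from rfl,
      show (fun s => X (u, s)) = X ∘ fun s => (u, s) from rfl, h1.deriv, h2.deriv,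
      ← map_smul, ← map_smul, ← map_add]
    simp
  rw [hfd, hfd, hu.deriv, hv.deriv]
  simp only [PiLp.inner_apply, Fin.sum_univ_four, PiLp.add_apply, PiLp.smul_apply, smul_eq_mul,
    RCLike.inner_apply, starRingEnd_apply, star_trivial, Matrix.cons_val_zero,
    Matrix.cons_val_one, Matrix.cons_val]
  -- algebra
  have hcs : cA ^ 2 + sA ^ 2 = 1 := cos_sq_add_sin_sq _
  have hθ1 : cos θ ^ 2 + sin θ ^ 2 = 1 := cos_sq_add_sin_sq _
  have hη1 : cos η ^ 2 + sin η ^ 2 = 1 := cos_sq_add_sin_sq _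
  have hq2 : q (τ u) ^ 2 = deriv α (τ u) ^ 2 + 4 * sA ^ 2 * cA ^ 2 := by
    simp only [hq]
    rw [sq_sqrt (hαpos _).le]
    simp only [hsA, hcA, hA, sin_two_mul]; ring
  have hvv : (r u * k) ^ 2 + (t u * k) ^ 2 = G u := by
    simp only [hr, ht, ← hcA, ← hsA]
    field_simp
    linear_combination (S u ^ 2) * hcs + hS2 u
  have huv : k * (r u ^ 2 * a₁ + t u ^ 2 * b₁) = F u := by
    have h : k * (r u ^ 2 * a₁ + t u ^ 2 * b₁) = S u ^ 2 / k * μ u := by
      simp only [hr, ht, ← hcA, ← hsA, ha₁, hb₁]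
      field_simp
      linear_combination (S u ^ 2 * μ u) * hcs
    rw [h, hS2]
    simp only [hμ]
    field_simp [(hGpos u).ne']
  have huu : r₁ ^ 2 + t₁ ^ 2 + (r u * a₁) ^ 2 + (t u * b₁) ^ 2 = E u := by
    have h : r₁ ^ 2 + t₁ ^ 2 + (r u * a₁) ^ 2 + (t u * b₁) ^ 2
        = (deriv S u / k) ^ 2 + (S u / k) ^ 2 * μ u ^ 2
          + (w u / q (τ u)) ^ 2 * q (τ u) ^ 2 * (S u / k) ^ 2 := by
      rw [hq2]
      simp only [hr, ht, hr₁, ht₁, ← hcA, ← hsA, ha₁, hb₁, hA₁]
      linear_combination ((deriv S u / k) ^ 2 + (S u / k) ^ 2 *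
        (μ u ^ 2 + (deriv α (τ u) * (w u / q (τ u))) ^ 2
          + 4 * sA ^ 2 * cA ^ 2 * (w u / q (τ u)) ^ 2)) * hcs
    have h2 : (w u / q (τ u)) ^ 2 * q (τ u) ^ 2 * (S u / k) ^ 2 = R u := by
      have := hqpos (τ u)
      field_simp
      linear_combination hw2 u
    have h3 : (S u / k) ^ 2 * μ u ^ 2 = F u ^ 2 / G u := by
      simp only [hμ, div_pow, hS2]
      field_simp [(hGpos u).ne']
    rw [h, h2, h3]
    simp only [hR, hR₀]; ring
  rw [← huu, ← huv, ← hvv]
  linear_combination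
    (v₁.1 * v₂.1 * (r₁ ^ 2 + (r u * a₁) ^ 2) + (v₁.1 * v₂.2 + v₁.2 * v₂.1) * (k * r u ^ 2 * a₁)
      + v₁.2 * v₂.2 * (r u * k) ^ 2) * hθ1
    + (v₁.1 * v₂.1 * (t₁ ^ 2 + (t u * b₁) ^ 2) + (v₁.1 * v₂.2 + v₁.2 * v₂.1) * (k * t u ^ 2 * b₁)
      + v₁.2 * v₂.2 * (t u * k) ^ 2) * hη1

end Vale.Agent.P205
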